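import Crest.Agent.X212.Tbs74.Defs
import Crest.Agent.X212.Loc74.Main
import Crest.Agent.X212.Clo39.Bas
import Crest.Agent.X212.Sw88.C0
import Crest.Agent.X212.Kop92.Cut

/-!
# Row 212, T-CL (helper71): compactness on a closed manifold
-/

set_option autoImplicit false
set_option linter.unusedSectionVars false
noncomputable section
open scoped Manifold ContDiff Topology InnerProductSpace NNReal
open MeasureTheory Set Function Filter

namespace Crest.Agent.X212.Tcl71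
open An An.Pre Sob92 Sw Loc74 Tbs74
open Lw78 (da)
open M (Mf)
open Cyl58 (om)

variable {κ lam ν : Type} [Fintype κ] [Fintype lam] [Fintype ν] [DecidableEq ν] {α : Type}
  {l : Filter α} {X : Mf 4} {nc : ℕ} {b : Bg X.I X.M κ lam ν nc} {c : α → Cfg X.M κ ν}
  {c₀ : Cfg X.M κ ν} {V : Type} [NormedAddCommGroup V] [NormedSpace ℝ V]

theorem hb_cb {ι : Type} [Fintype ι] {F : Pre X.I X.M ι} {z : X.M} {C : ℝ} : ∀ {j : ℕ}
    {f : α → X.M → V}, (∀ᶠ i in l, Sm X.I (f i) ∧ F.CB j (f i) C) → HB l z F 0 (j + 1) f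
  | 0, _, h => .one0 (h.mono fun _ k => k.1)
      ⟨C, (tendsto_fst.eventually h).mono fun _ k => CB_bound k.2 _⟩
  | _ + 1, _, h => (HB.one0 (h.mono fun _ k => k.1)
      ⟨C, (tendsto_fst.eventually h).mono fun _ k => CB_bound k.2 _⟩).succ fun a =>
        hb_cb (h.mono fun _ k => ⟨F.sm_D k.1 a, (CB_succ.1 k.2).2 a⟩)

theorem exists_bd (h : b.OK) : ∃ C, b.Bd C := by
  obtain ⟨C, hC⟩ := h.tame
  obtain ⟨C1, h1⟩ := h.cms
  obtain ⟨C2, h2⟩ := h.com
  obtain ⟨C3, h3⟩ := Prm93.Cb_unif fun i => Cb_add (Cb_D h.cms i)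
    (Cb_sub (Cb_bil (.mul ℝ _) (h.cA i) h.cms) (Cb_bil (.mul ℝ _) h.cms (h.cA i)))
  exact ⟨fun j => max (C j) (max (C1 0) (max (C2 0) (C3 0))),
    Ell97.Tame_mono hC fun _ => le_max_left _ _, fun x => (CB_bound (h1.2 0) x).trans (by simp),
    fun i x => (CB_bound ((h3 i).2 0) x).trans (by simp),
    fun x => (CB_bound (h2.2 0) x).trans (by simp)⟩

theorem nb (hb : b.OK) : Nb l b (fun _ => b) fun _ => b.F.P :=
  ⟨hb, .of_forall fun _ => ⟨hb, rfl, rfl, rfl, fun a x => (b.F.P_e a x).symm⟩,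
    .of_forall fun _ => b.F.P_sm, fun a k => .fixed' (b.F.P_sm a k),
    fun a => (Cmp73.Cv.fixed' (hb.cA a).choose_spec.1).mb,
    fun a k n => (Cmp73.Cv.fixed' (b.F.c_sm a k n)).mb,
    (Cmp73.Cv.fixed' hb.cms.choose_spec.1).mb, (Cmp73.Cv.fixed' hb.com.choose_spec.1).mb⟩

theorem frm (hb : b.OK) (h : b.Adm c₀) : Frm b.F c₀.a :=
  ⟨h.sa, (show b.F.P = b.B.P from hb.G.P) ▸ h.pa⟩

variable (b l c c₀) in
/-- smooth convergence of configurations -/
structure CC : Prop where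
  a : ∀ k, Cmp73.Cv X.I l univ (fun i => (c i).a k) (c₀.a k)
  Φ : Cmp73.Cv X.I l univ (fun i => (c i).Φ) c₀.Φ

namespace CC
variable [l.NeBot] (h : CC l c c₀) (hb : b.OK)
include h hb

theorem W (i : Option κ) : Cmp73.Cv X.I l univ (fun n => b.W (c n) i) (b.W c₀ i) :=
  (Cmp73.Cv.fixed' (hb.cA i).choose_spec.1).add
    ((h.a i).smul (.fixed' (Lw78.cb_jp hb).choose_spec.1))

theorem eD : Cmp73.Cv X.I l univ (fun n => b.eD (c n)) (b.eD c₀) :=
  (Cmp73.Cv.sum fun i => (Cmp73.Cv.fixed' (hb.cρ i).choose_spec.1).app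
    ((h.Φ.D isOpen_univ b.F.toPre i).add ((h.W hb i).app h.Φ))).add
    ((Cmp73.Cv.fixed' hb.cms.choose_spec.1).app h.Φ)

theorem fc (j : Option κ × Option κ) :
    Cmp73.Cv X.I l univ (fun n x => b.fc (c n) x j) fun x => b.fc c₀ x j :=
  (((Cmp73.Cv.fixed' (Lw78.cb_jp hb).choose_spec.1).clm hsL).bil (innerSL ℝ)
    ((((((h.W hb j.2).D isOpen_univ b.F.toPre j.1).sub
      ((h.W hb j.1).D isOpen_univ b.F.toPre j.2)).add
    (((h.W hb j.1).mul (h.W hb j.2)).sub ((h.W hb j.2).mul (h.W hb j.1)))).sub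
    (Cmp73.Cv.sum fun k => (Cmp73.Cv.fixed' (b.F.c_sm j.1 j.2 k)).smul (h.W hb k))).clm
      hsL)).const_smul (1 / 8)

theorem eC (x : X.M) : Tendsto (fun n => b.eC (c n) x) l (𝓝 (b.eC c₀ x)) := by
  have h1 : Continuous fun v => b.qd x v v :=
    (PiLp.continuous_toLp 2 _).comp (continuous_pi fun _ => by fun_prop)
  exact (((b.p2 x).continuous.tendsto _).comp ((((PiLp.continuous_toLp 2 _).tendsto _).comp
    (tendsto_pi_nhds.2 fun j => (h.fc hb j).pt x trivial)).sub (((h1.tendsto _).comp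
      (h.Φ.pt x trivial)).const_smul b.w))).sub tendsto_const_nhds

theorem adm (k : ∀ᶠ i in l, b.Adm (c i)) : b.Adm c₀ :=
  ⟨fun i _ => (h.a i).smoothAt isOpen_univ trivial, fun _ => h.Φ.smoothAt isOpen_univ trivial,
    fun i x => tendsto_nhds_unique_of_eventuallyEq (tendsto_finsetSum _ fun j _ =>
      ((h.a j).pt x trivial).const_mul _) ((h.a i).pt x trivial) (k.mono fun _ k => k.pa i x),
    fun x => tendsto_nhds_unique_of_eventuallyEq (((b.pp x).continuous.tendsto _).comp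
      (h.Φ.pt x trivial)) (h.Φ.pt x trivial) (k.mono fun _ k => k.pΦ x)⟩

omit hb in
theorem act {u : α → X.M → ℂ} {u₀ : X.M → ℂ} (hu : Cmp73.Cv X.I l univ u u₀) :
    CC l (fun i => b.act (u i) (c i)) (b.act u₀ c₀) :=
  ⟨fun k => (h.a k).sub (((hu.clm Complex.conjCLE.toContinuousLinearMap).mul
    (hu.D isOpen_univ b.F.toPre k)).clm Complex.imCLM), (hu.clm (Pb50.cB b.m.J)).app h.Φ⟩

end CC

variable [CompactSpace X.M] (hb : b.OK)
include hb

open Qab60 in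
/-- exact forms are controlled by their self-dual parts -/
theorem int_da {a : Option κ → X.M → ℝ} (ha : Frm b.F a) :
    ∫ x, ‖da b.F a x‖ ^ 2 ∂b.F.μ = 2 * ∫ x, ‖b.p2 x (da b.F a x)‖ ^ 2 ∂b.F.μ := by
  have s : Rad94.S1 b a := ⟨ha.sm, (show b.F.P = b.B.P from hb.G.P) ▸ ha.pr⟩
  have t := Clo39.tam hb
  have f := fo_g1 (F := b.F) (Clo39.sm_vc s)
  have e := t.integ_d f f.d f.dd (.of_compactSpace _)
  rw [integ_mul t.ok f.d.dg] at e
  have c := (sm_c2 (F := b.F) f.d.sm).continuous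
  have i : ∀ {o}, Tam b.F o → Integrable (fun x => ‖Num57.hs b.F o x
      (c2 b.F (Dr59.dM X.I (g1 b.F (Rad94.vc a))) x)‖ ^ 2) b.F.μ := fun h =>
    ((h.cb_hs.choose_spec.1.continuous.clm_apply c).norm.pow 2).integrable_of_hasCompactSupport
      (.of_compactSpace _)
  have e0 : da b.F a = Rad94.d1 b a := rfl
  rw [e0, Clo39.d1_eq hb s]
  simp only [inner_st t.ok, integral_sub (i t) (i t.neg)] at e
  simp only [Clo39.p2_eq hb]
  rw [integral_congr_ae (.of_forall (norm_c2_sq t.ok _)), integral_add (i t) (i t.neg)]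
  linarith

/-- **Compactness.** -/
theorem cpt (hw : 0 < b.w) {𝒰 : Ultrafilter α} {c : α → Cfg X.M κ ν} (hc : ∀ i, b.Adm (c i))
    (hD : ∀ i x, b.eD (c i) x = 0) {R : ℝ}
    (hE : ∀ j, ∀ᶠ i in (𝒰 : Filter α), Sm X.I (b.eC (c i)) ∧ b.F.CB j (b.eC (c i)) R) :
    ∃ u : α → X.M → ℂ, (∀ i, Gau X.I (u i)) ∧ ∃ c₁, CC 𝒰 (fun i => b.act (u i) (c i)) c₁ := by
  classical
  have n := nb (l := (𝒰 : Filter α)) hb
  obtain ⟨C, hC⟩ := exists_bd hb
  have h0 : ∀ᶠ i in (𝒰 : Filter α), ∀ x, ‖(c i).Φ x‖ ≤ _ := (hE 0).mono fun i k x =>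
    Sw88.c0_core hb hC hw (hc i) (g := fun _ => 0) (χ := fun _ => 1) (G := 0) contMDiff_const
      (fun x => by simp [hD, D_def, dv_const]) (CB_bound k.2) contMDiff_const (CB_const 2 1)
      (.of_compactSpace _) (fun _ => ⟨zero_le_one, le_rfl⟩) (fun _ _ => by simp) (x₀ := x) rfl
  have h1 := fun z => HB.one0 (z := z) (F := b.F.toPre) (.of_forall fun i => (hc i).sΦ)
    ⟨_, (tendsto_fst.eventually h0).mono fun q k => k q.2⟩
  obtain ⟨B, hB⟩ := HB.int isCompact_univ fun z _ =>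
    n.fc (j := 0) (h1 z) (h1 z).of0 (hb_cb (hE 0)).of0
  obtain ⟨O, -, o2, u, u1, u2⟩ := Rad57.cech X _ b.F univ isCompact_univ α 𝒰 (fun i => (c i).a)
    (fun i => frm hb (hc i)) fun K _ => Rad57.l2_mono ⟨(2 * B).toNNReal, hB.mono fun i k => by
      simp only [Lw78.fc_da hb (hc i).sa, add_sub_cancel_left, Measure.restrict_univ] at k ⊢
      refine le_of_eq_of_le ?_ (ENNReal.ofReal_le_ofReal ((int_da hb (frm hb (hc i))).trans_le
        (mul_le_mul_of_nonneg_left k zero_le_two)))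
      rw [ofReal_integral_eq_lintegral_ofReal (((Rad57.cont_da (hc i).sa).norm.fun_pow
        2).integrable_of_hasCompactSupport (.of_compactSpace _)) (.of_forall fun _ => sq_nonneg _)]
      simp only [ENNReal.ofReal_pow (norm_nonneg _), ofReal_norm]⟩ (subset_univ K)
  obtain rfl := univ_subset_iff.1 o2
  let w := fun i => if GauOn X.I (u i) univ then u i else fun _ => 1
  have w1 : ∀ i, Gau X.I (w i) := fun i => by
    simp only [w]
    split_ifs with k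
    exacts [⟨contMDiffOn_univ.1 k.1, fun x => k.2 x trivial⟩, ⟨contMDiff_const, fun _ => norm_one⟩]
  have ad := fun i => Cyl58.adm_act hb (hc i) (w1 i)
  obtain ⟨v, v1, v2⟩ := n.boot (c := fun i => b.act (w i) (c i))
    (g := fun i => (b.act (w i) (c i)).a) (fun i => frm hb (ad i))
    (h0.mono fun i k => ⟨ad i, (funext₂ (frm hb (ad i)).pr).symm,
      fun x => (Pb50.norm_act hb ((w1 i).2 x)).trans_le (k x)⟩)
    (fun z k => .of_l2 (fun i => (ad i).sa k) (fun K hK => Rad57.l2_congr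
      (Rad57.l2_mono (u2 k) (subset_univ K)) hK.measurableSet (u1.mono fun i hi x _ => by
        simp only [w, if_pos hi]; rfl)) z)
    fun v hv j _ z => ⟨(HB.const 0).eq (.of_forall fun i x => by
      rw [Cyl58.eD_act hb (ad i) (hv i), Cyl58.eD_act hb (hc i) (w1 i), hD]; simp [cs]),
      (hb_cb (hE j)).of0.eq (.of_forall fun i x => by
        rw [Cyl58.eC_act hb (ad i) (hv i), Cyl58.eC_act hb (hc i) (w1 i)])⟩
  choose a ha using fun k => hb_cv fun j z => (v2 j z).a k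
  obtain ⟨Φ, hΦ⟩ := hb_cv fun j z => (v2 j z).Φ
  refine ⟨_, fun i => (Cyl58.gau_mul b.F (v1 i) (w1 i)).1, ⟨a, Φ⟩, ?_⟩
  simp only [← fun i => Pb50.act_act hb (w1 i) (v1 i)]
  exact ⟨ha, hΦ⟩

omit hb [CompactSpace X.M] in
theorem sm_ph {w : ℂ} (h : w ≠ 0) : ∀ᶠ v in 𝓝 w, ContDiffAt ℝ ∞ (fun v : ℂ => ‖v‖⁻¹ • star v) v :=
  (eventually_ne_nhds h).mono fun _ hv => ((contDiffAt_norm ℝ hv).inv (norm_ne_zero_iff.2 hv)).smul
    Complex.conjCLE.contDiff.contDiffAt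

omit hb in
/-- the algebraic gauge -/
theorem alg {b : Bg X.I X.M κ lam ν 0} (hb : b.OK) [l.NeBot] (h : CC l c c₀) (h₀ : Sm X.I c₀.Φ)
    (h1 : ∀ x, c₀.Φ x ≠ 0) {δ : ℝ} (hδ : 0 < δ) :
    ∀ᶠ i in l, ∃ z, Gau X.I z ∧ Nr b c₀ δ (b.act z (c i)) := by
  have J : b.m.J * b.m.J = -1 := hb.m.Jsq
  have e : ∀ v, hm b.m.J v v = (‖v‖ ^ 2 : ℝ) := fun v => Complex.ext (real_inner_self_eq_norm_sq v)
    (by
      have := hb.m.Jsk v v
      have := real_inner_comm v (b.m.J v)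
      rw [Complex.ofReal_im]
      show -⟪v, b.m.J v⟫_ℝ = 0
      linarith)
  have n0 : ∀ x, Kop92.hmL b.m.J (c₀.Φ x) (c₀.Φ x) ≠ 0 := fun x => by
    rw [Kop92.hmL_apply, e]; simpa using h1 x
  have k1 := (Cmp73.Cv.fixed' (l := l) (Ω := univ) h₀).bil (Kop92.hmL b.m.J) h.Φ
  have k2 := k1.post fun x _ => sm_ph (n0 x)
  rw [show (fun x => ‖Kop92.hmL b.m.J (c₀.Φ x) (c₀.Φ x)‖⁻¹ •
      star (Kop92.hmL b.m.J (c₀.Φ x) (c₀.Φ x))) = fun _ => 1 from funext fun x => by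
    have := norm_ne_zero_iff.2 (h1 x)
    rw [Kop92.hmL_apply, e, Complex.norm_real, Complex.star_def, Complex.conj_ofReal,
      Real.norm_of_nonneg (sq_nonneg _), Complex.real_smul, ← Complex.ofReal_mul,
      inv_mul_cancel₀ (pow_ne_zero 2 this), Complex.ofReal_one]] at k2
  have k3 := h.act (b := b) k2
  rw [Pb50.act_one] at k3
  filter_upwards [Cmp73.ev_compact (p := fun i x => Kop92.hmL b.m.J (c₀.Φ x) ((c i).Φ x) ≠ 0)
    isCompact_univ fun x _ => (k1.tendsto (mem_univ x)).eventually_ne (n0 x), k2.mb.smooth isCompact_univ subset_rfl, eventually_all.2 fun k =>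
      (k3.a k).unif isOpen_univ isCompact_univ subset_rfl hδ,
    k3.Φ.unif isOpen_univ isCompact_univ subset_rfl hδ] with i a1 a2 a3 a4
  refine ⟨_, ⟨fun x => a2 x trivial, fun x => ?_⟩, fun k x => (a3 k x trivial).le,
    fun x => (a4 x trivial).le, fun x => ?_⟩
  · rw [norm_smul, norm_inv, norm_norm, norm_star,
      inv_mul_cancel₀ (norm_ne_zero_iff.2 (a1 x trivial))]
  · have k := congrArg Complex.im (Kop92.hm_cs_right J (‖hm b.m.J (c₀.Φ x) ((c i).Φ x)‖⁻¹ •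
      star (hm b.m.J (c₀.Φ x) ((c i).Φ x))) (c₀.Φ x) ((c i).Φ x))
    rw [smul_mul_assoc, mul_comm, Complex.star_def, Complex.mul_conj, Complex.smul_im,
      Complex.ofReal_im, smul_zero] at k
    rw [hb.m.Jsk]
    simp only [Bg.act, Kop92.hmL_apply]
    exact k

omit hb [CompactSpace X.M]

variable (κ lam ν) in
/-- **T-CL** -/
theorem clStmt : ClStmt κ lam ν := by
  intro X _ _ b c₀ hb hw _ h₀ h1 h2 δ hδ
  by_contra hn
  push Not at hn
  choose f f1 f2 c c1 c2 using fun n : ℕ => hn n (1 / (n + 1)) Nat.one_div_pos_of_nat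
  let 𝒰 := Ultrafilter.of (atTop : Filter ℕ)
  have hU : (𝒰 : Filter ℕ) ≤ atTop := Ultrafilter.of_le _
  have ad : ∀ n, b.Adm (c n) := fun n => ⟨(c1 n).sa, (c1 n).sΦ, (c1 n).pa, (c1 n).pΦ⟩
  have eD : ∀ n x, b.eD (c n) x = 0 := fun n x => ((c1 n).eq x trivial).1
  have eC : ∀ n, b.eC (c n) = f n := fun n => funext fun x => by
    have : b.p2 x (b.fc (c n) x - (1 : ℝ) • b.qd x ((c n).Φ x) ((c n).Φ x)) -
      (b.om x + f n x) = 0 := ((c1 n).eq x trivial).2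
    rw [Bg.eC, hw, sub_eq_zero.1 this, add_sub_cancel_left]
  obtain ⟨u, u1, c₁, k⟩ := cpt hb (hw ▸ one_pos) (𝒰 := 𝒰) ad eD (R := 1) fun j =>
    ((eventually_ge_atTop j).filter_mono hU).mono fun n hn => eC n ▸ ⟨(f1 n).1.choose_spec.1,
      CB_mono (CB_of_le (f2 n) hn) ((div_le_one (by positivity)).2 (by simp))⟩
  have a1 := fun i => Cyl58.adm_act hb (ad i) (u1 i)
  obtain ⟨v, v1, rfl⟩ := h2 c₁ ⟨k.adm hb (.of_forall a1), fun x _ =>
    ⟨tendsto_nhds_unique ((k.eD hb).pt x trivial) (tendsto_const_nhds.congr fun i => by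
      rw [Cyl58.eD_act hb (ad i) (u1 i), eD]; simp [cs]),
    tendsto_nhds_unique (k.eC hb x) (squeeze_zero_norm (fun i => by
      rw [Cyl58.eC_act hb (ad i) (u1 i), eC]; exact CB_bound (f2 i) x)
      (tendsto_one_div_add_atTop_nhds_zero_nat.mono_left hU))⟩, fun j => j.elim0⟩
  have s := (Cyl58.gau_star b.F v1).1
  have k2 := k.act (b := b) (.fixed' s.1)
  rw [Pb50.act_act hb v1 s, funext fun x => Pb50.star_mul_one (v1.2 x), Pb50.act_one] at k2
  obtain ⟨i, z, z1, z2⟩ := (alg hb k2 h₀.sΦ h1 hδ).exists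
  rw [Pb50.act_act hb (u1 i) s, Pb50.act_act hb (Cyl58.gau_mul b.F s (u1 i)).1 z1] at z2
  exact c2 i _ (Cyl58.gau_mul b.F z1 (Cyl58.gau_mul b.F s (u1 i)).1).1 z2

end Crest.Agent.X212.Tcl71
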